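import Mathlib

/-!
P092 (helper601): comparison of the sorted eigenvalues of two positive matrices under a congruence.
-/

namespace Vale.Agent.P092.H601

open Matrix

variable {m : Type*} [Fintype m] [DecidableEq m]

/-- the `j`-th eigenvector of a hermitian real matrix, the eigenvalues being in decreasing order -/
noncomputable def evec {A : Matrix m m ℝ} (hA : A.IsHermitian) (j : Fin (Fintype.card m)) : m → ℝ :=
  (hA.eigenvectorBasis ((Fintype.equivOfCardEq (Fintype.card_fin _)) j) : m → ℝ)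

theorem mulVec_evec {A : Matrix m m ℝ} (hA : A.IsHermitian) (j : Fin (Fintype.card m)) :
    A *ᵥ evec hA j = hA.eigenvalues₀ j • evec hA j := by
  have h := hA.mulVec_eigenvectorBasis ((Fintype.equivOfCardEq (Fintype.card_fin _)) j)
  rw [evec, h]
  simp [IsHermitian.eigenvalues]

theorem evec_dot {A : Matrix m m ℝ} (hA : A.IsHermitian) (j k : Fin (Fintype.card m)) :
    evec hA j ⬝ᵥ evec hA k = if j = k then 1 else 0 := by
  have h := (orthonormal_iff_ite.mp hA.eigenvectorBasis.orthonormal)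
    ((Fintype.equivOfCardEq (Fintype.card_fin _)) k) ((Fintype.equivOfCardEq (Fintype.card_fin _)) j)
  rw [EuclideanSpace.inner_eq_star_dotProduct] at h
  simp only [EmbeddingLike.apply_eq_iff_eq, star_trivial] at h
  rw [evec, evec, h]
  simp only [eq_comm]

theorem sum_evec {A : Matrix m m ℝ} (hA : A.IsHermitian) (x : m → ℝ) :
    ∑ j, (evec hA j ⬝ᵥ x) • evec hA j = x := by
  have h := hA.eigenvectorBasis.sum_repr' (WithLp.toLp 2 x)
  have h2 := congrArg (WithLp.ofLp) h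
  simp only [EuclideanSpace.inner_eq_star_dotProduct, star_trivial] at h2
  rw [WithLp.ofLp_sum] at h2
  rw [← (Fintype.equivOfCardEq (Fintype.card_fin (Fintype.card m)) :
    Fin (Fintype.card m) ≃ m).sum_comp] at h2
  refine Eq.trans (Finset.sum_congr rfl fun j _ => ?_) h2
  rw [WithLp.ofLp_smul, dotProduct_comm]
  rfl

theorem dot_eq_sum {A : Matrix m m ℝ} (hA : A.IsHermitian) (x y : m → ℝ) :
    x ⬝ᵥ y = ∑ j, (evec hA j ⬝ᵥ x) * (evec hA j ⬝ᵥ y) := by
  conv_lhs => rw [← sum_evec hA x]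
  rw [sum_dotProduct]
  simp [smul_dotProduct]

theorem quad_eq_sum {A : Matrix m m ℝ} (hA : A.IsHermitian) (x : m → ℝ) :
    x ⬝ᵥ (A *ᵥ x) = ∑ j, hA.eigenvalues₀ j * (evec hA j ⬝ᵥ x) ^ 2 := by
  rw [dot_eq_sum hA]
  refine Finset.sum_congr rfl fun j _ => ?_
  have h1 : evec hA j ⬝ᵥ (A *ᵥ x) = hA.eigenvalues₀ j * (evec hA j ⬝ᵥ x) := by
    rw [dotProduct_mulVec, ← mulVec_transpose]
    have : Aᵀ = A := by
      have := hA.eq
      rwa [conjTranspose_eq_transpose_of_trivial] at this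
    rw [this, mulVec_evec, smul_dotProduct, smul_eq_mul]
  rw [h1]; ring

/-- **[EV]** -/
theorem eigenvalues₀_congr {A B : Matrix m m ℝ} (hA : A.PosDef) (hB : B.PosDef) (T : Matrix m m ℝ)
    (hT : IsUnit T) {c d : ℝ} (hc : 0 < c)
    (h1 : ∀ x : m → ℝ, c * ((T *ᵥ x) ⬝ᵥ (A *ᵥ (T *ᵥ x))) ≤ x ⬝ᵥ (B *ᵥ x))
    (h2 : ∀ x : m → ℝ, d * (x ⬝ᵥ x) ≤ (T *ᵥ x) ⬝ᵥ (T *ᵥ x)) (i : Fin (Fintype.card m)) :
    c * d * hA.isHermitian.eigenvalues₀ i ≤ hB.isHermitian.eigenvalues₀ i := by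
  classical
  set a := hA.isHermitian with ha
  set b := hB.isHermitian with hb
  -- the linear map
  let Ψ : (Fin (i.1 + 1) → ℝ) →ₗ[ℝ] (m → ℝ) :=
    (Matrix.mulVecLin T⁻¹) ∘ₗ (Fintype.linearCombination ℝ
      (fun k : Fin (i.1 + 1) => evec a ⟨k.1, by have := k.2; have := i.2; omega⟩))
  let Φ : (Fin (i.1 + 1) → ℝ) →ₗ[ℝ] (Fin i.1 → ℝ) :=
    LinearMap.pi (fun j : Fin i.1 => (dotProductBilin ℝ ℝ (evec b ⟨j.1, by have := j.2; have := i.2; omega⟩)) ∘ₗ Ψ)
  have hker : LinearMap.ker Φ ≠ ⊥ := by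
    apply LinearMap.ker_ne_bot_of_finrank_lt
    simp
  obtain ⟨v, hv, hv0⟩ := (Submodule.ne_bot_iff _).mp hker
  have hdet : IsUnit T.det := (Matrix.isUnit_iff_isUnit_det T).mp hT
  set y : m → ℝ := Fintype.linearCombination ℝ
      (fun k : Fin (i.1 + 1) => evec a ⟨k.1, by have := k.2; have := i.2; omega⟩) v with hy
  set x : m → ℝ := Ψ v with hx
  have hTx : T *ᵥ x = y := by
    rw [hx, hy]
    simp only [Ψ, LinearMap.comp_apply, mulVecLin_apply, mulVec_mulVec,
      Matrix.mul_nonsing_inv T hdet, one_mulVec]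
  -- the coordinates of `y`
  have hyk : ∀ j : Fin (Fintype.card m), evec a j ⬝ᵥ y =
      if h : j.1 < i.1 + 1 then v ⟨j.1, h⟩ else 0 := by
    intro j
    rw [hy, Fintype.linearCombination_apply, dotProduct_sum]
    simp only [dotProduct_smul, evec_dot, smul_eq_mul, mul_ite, mul_one, mul_zero]
    split_ifs with h
    · rw [Finset.sum_eq_single (⟨j.1, h⟩ : Fin (i.1 + 1))]
      · simp
      · intro k _ hk
        rw [if_neg]
        intro h'
        apply hk
        ext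
        exact (congrArg Fin.val h').symm
      · simp
    · apply Finset.sum_eq_zero
      intro k _
      rw [if_neg]
      intro h'
      apply h
      rw [h']
      exact k.2
  have hxk : ∀ j : Fin (Fintype.card m), j.1 < i.1 → evec b j ⬝ᵥ x = 0 := by
    intro j hj
    have := congrFun (LinearMap.mem_ker.mp hv) ⟨j.1, hj⟩
    exact this
  have hy0 : y ≠ 0 := by
    intro h0
    apply hv0
    ext k
    have := hyk ⟨k.1, by have := k.2; have := i.2; omega⟩
    rw [h0, dotProduct_zero, dif_pos k.2] at this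
    exact this.symm
  have hx0 : x ≠ 0 := by
    intro h0
    apply hy0
    rw [← hTx, h0, mulVec_zero]
  have hxx : 0 < x ⬝ᵥ x := by
    have h := dotProduct_star_self_pos_iff.mpr hx0
    simpa using h
  -- upper bound for `B`
  have hB' : x ⬝ᵥ (B *ᵥ x) ≤ b.eigenvalues₀ i * (x ⬝ᵥ x) := by
    rw [quad_eq_sum b, dot_eq_sum b x x, Finset.mul_sum]
    refine Finset.sum_le_sum fun j _ => ?_
    by_cases hj : j.1 < i.1
    · rw [hxk j hj]; simp
    · have : b.eigenvalues₀ j ≤ b.eigenvalues₀ i :=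
        b.eigenvalues₀_antitone (Fin.le_def.mpr (not_lt.mp hj))
      nlinarith [mul_self_nonneg (evec b j ⬝ᵥ x)]
  -- lower bound for `A`
  have hA' : a.eigenvalues₀ i * (y ⬝ᵥ y) ≤ y ⬝ᵥ (A *ᵥ y) := by
    rw [quad_eq_sum a, dot_eq_sum a y y, Finset.mul_sum]
    refine Finset.sum_le_sum fun j _ => ?_
    by_cases hj : j.1 < i.1 + 1
    · have : a.eigenvalues₀ i ≤ a.eigenvalues₀ j :=
        a.eigenvalues₀_antitone (Fin.le_def.mpr (Nat.lt_succ_iff.mp hj))
      nlinarith [mul_self_nonneg (evec a j ⬝ᵥ y)]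
    · rw [hyk j, dif_neg hj]; simp
  have hpos : 0 ≤ a.eigenvalues₀ i := by
    have h := hA.posSemidef.eigenvalues_nonneg
      ((Fintype.equivOfCardEq (Fintype.card_fin _)) i)
    simpa [IsHermitian.eigenvalues] using h
  have e1 := h1 x
  have e2 := h2 x
  rw [hTx] at e1 e2
  have e3 : c * d * a.eigenvalues₀ i * (x ⬝ᵥ x) ≤ b.eigenvalues₀ i * (x ⬝ᵥ x) := by
    calc c * d * a.eigenvalues₀ i * (x ⬝ᵥ x) = c * (a.eigenvalues₀ i * (d * (x ⬝ᵥ x))) := by ring
      _ ≤ c * (a.eigenvalues₀ i * (y ⬝ᵥ y)) := by gcongr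
      _ ≤ c * (y ⬝ᵥ (A *ᵥ y)) := by gcongr
      _ ≤ x ⬝ᵥ (B *ᵥ x) := e1
      _ ≤ _ := hB'
  exact le_of_mul_le_mul_right e3 hxx

end Vale.Agent.P092.H601
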