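import Mathlib

/-!
P092 (helper601): quadratic forms of functions of a positive definite matrix; monotonicity of the
inverse; the near projections `(1 + μ B⁻¹)⁻¹`.
-/

namespace Vale.Agent.P092.H601

open Matrix

variable {n : ℕ}

/-- the quadratic form of a matrix -/
def qf (A : Matrix (Fin n) (Fin n) ℝ) (v : Fin n → ℝ) : ℝ := v ⬝ᵥ (A *ᵥ v)

theorem qf_add (A B : Matrix (Fin n) (Fin n) ℝ) (v : Fin n → ℝ) :
    qf (A + B) v = qf A v + qf B v := by
  simp [qf, add_mulVec, dotProduct_add]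

theorem qf_smul (c : ℝ) (A : Matrix (Fin n) (Fin n) ℝ) (v : Fin n → ℝ) :
    qf (c • A) v = c * qf A v := by
  simp [qf, smul_mulVec, dotProduct_smul]

theorem qf_sum {ι : Type*} (s : Finset ι) (A : ι → Matrix (Fin n) (Fin n) ℝ) (v : Fin n → ℝ) :
    qf (∑ i ∈ s, A i) v = ∑ i ∈ s, qf (A i) v := by
  simp [qf, sum_mulVec, dotProduct_sum]

theorem qf_one (v : Fin n → ℝ) : qf (1 : Matrix (Fin n) (Fin n) ℝ) v = v ⬝ᵥ v := by
  simp [qf]

theorem dot_self_nonneg (v : Fin n → ℝ) : 0 ≤ v ⬝ᵥ v := by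
  simpa using dotProduct_star_self_nonneg v

theorem posDef_iff_qf {A : Matrix (Fin n) (Fin n) ℝ} :
    A.PosDef ↔ A.IsHermitian ∧ ∀ v, v ≠ 0 → 0 < qf A v := by
  rw [posDef_iff_dotProduct_mulVec]
  simp [qf]

theorem qf_pos {A : Matrix (Fin n) (Fin n) ℝ} (hA : A.PosDef) {v : Fin n → ℝ} (hv : v ≠ 0) :
    0 < qf A v := (posDef_iff_qf.mp hA).2 v hv

theorem qf_nonneg {A : Matrix (Fin n) (Fin n) ℝ} (hA : A.PosDef) (v : Fin n → ℝ) :
    0 ≤ qf A v := by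
  by_cases hv : v = 0
  · simp [hv, qf]
  · exact (qf_pos hA hv).le

theorem transpose_eq {A : Matrix (Fin n) (Fin n) ℝ} (hA : A.IsHermitian) : Aᵀ = A := by
  have := hA.eq
  rwa [conjTranspose_eq_transpose_of_trivial] at this

theorem dot_mulVec_comm {A : Matrix (Fin n) (Fin n) ℝ} (hA : A.IsHermitian) (v w : Fin n → ℝ) :
    v ⬝ᵥ (A *ᵥ w) = w ⬝ᵥ (A *ᵥ v) := by
  rw [dotProduct_mulVec, ← mulVec_transpose, transpose_eq hA, dotProduct_comm]

theorem isUnit_det {A : Matrix (Fin n) (Fin n) ℝ} (hA : A.PosDef) : IsUnit A.det :=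
  (Matrix.isUnit_iff_isUnit_det A).mp hA.isUnit

/-- the inverse reverses the order -/
theorem inv_anti {A B : Matrix (Fin n) (Fin n) ℝ} (hA : A.PosDef) (hB : B.PosDef)
    (h : ∀ v, qf A v ≤ qf B v) (v : Fin n → ℝ) : qf B⁻¹ v ≤ qf A⁻¹ v := by
  set w := B⁻¹ *ᵥ v with hw
  set u := A⁻¹ *ᵥ v with hu
  have hBw : B *ᵥ w = v := by rw [hw, mulVec_mulVec, mul_nonsing_inv _ (isUnit_det hB), one_mulVec]
  have hAu : A *ᵥ u = v := by rw [hu, mulVec_mulVec, mul_nonsing_inv _ (isUnit_det hA), one_mulVec]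
  have e1 : qf B⁻¹ v = w ⬝ᵥ v := by rw [qf, ← hw, dotProduct_comm]
  have e2 : qf A⁻¹ v = u ⬝ᵥ v := by rw [qf, ← hu, dotProduct_comm]
  have e3 : qf B w = w ⬝ᵥ v := by rw [qf, hBw]
  have e4 : 0 ≤ qf A (u - w) := qf_nonneg hA _
  have e5 : qf A (u - w) = u ⬝ᵥ v - 2 * (w ⬝ᵥ v) + qf A w := by
    have h1 : u ⬝ᵥ (A *ᵥ w) = w ⬝ᵥ v := by rw [dot_mulVec_comm hA.isHermitian, hAu]
    have h2 : qf A (u - w) = u ⬝ᵥ (A *ᵥ u) - u ⬝ᵥ (A *ᵥ w) - w ⬝ᵥ (A *ᵥ u) + w ⬝ᵥ (A *ᵥ w) := by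
      simp only [qf, mulVec_sub, dotProduct_sub, sub_dotProduct]
      ring
    rw [h2, hAu, h1, qf]; ring
  have e6 := h w
  rw [e1, e2]
  linarith

/-- spectral data: an orthonormal basis of eigenvectors with decreasing positive eigenvalues -/
structure Spec (B : Matrix (Fin n) (Fin n) ℝ) (x : Fin n → ℝ) (e : Fin n → Fin n → ℝ) : Prop where
  orth : ∀ i j, e i ⬝ᵥ e j = if i = j then 1 else 0
  eig : ∀ i, B *ᵥ e i = x i • e i
  pos : ∀ i, 0 < x i
  anti : Antitone x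

namespace Spec

variable {B : Matrix (Fin n) (Fin n) ℝ} {x : Fin n → ℝ} {e : Fin n → Fin n → ℝ}

theorem sum_smul (h : Spec B x e) (v : Fin n → ℝ) : ∑ i, (e i ⬝ᵥ v) • e i = v := by
  have h1 : (Matrix.of e) * (Matrix.of e)ᵀ = 1 := by
    ext i j
    rw [mul_apply', one_apply]
    exact h.orth i j
  have h2 : (Matrix.of e)ᵀ * (Matrix.of e) = 1 := mul_eq_one_comm.mp h1
  have h3 : (Matrix.of e)ᵀ *ᵥ ((Matrix.of e) *ᵥ v) = v := by rw [mulVec_mulVec, h2, one_mulVec]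
  ext k
  have h4 := congrFun h3 k
  rw [← h4]
  simp only [Finset.sum_apply, Pi.smul_apply, smul_eq_mul, mulVec, dotProduct, transpose_apply,
    of_apply]
  exact Finset.sum_congr rfl fun i _ => mul_comm _ _

theorem quad (h : Spec B x e) {M : Matrix (Fin n) (Fin n) ℝ} {f : Fin n → ℝ}
    (hM : ∀ i, M *ᵥ e i = f i • e i) (v : Fin n → ℝ) :
    qf M v = ∑ i, f i * (e i ⬝ᵥ v) ^ 2 := by
  have h1 : M *ᵥ v = ∑ i, (f i * (e i ⬝ᵥ v)) • e i := by
    conv_lhs => rw [← h.sum_smul v]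
    rw [mulVec_sum]
    refine Finset.sum_congr rfl fun i _ => ?_
    rw [mulVec_smul, hM, smul_smul, mul_comm]
  rw [qf, h1, dotProduct_sum]
  refine Finset.sum_congr rfl fun i _ => ?_
  rw [dotProduct_smul, dotProduct_comm v, smul_eq_mul]
  ring

theorem dot_self (h : Spec B x e) (v : Fin n → ℝ) : v ⬝ᵥ v = ∑ i, (e i ⬝ᵥ v) ^ 2 := by
  have := h.quad (M := 1) (f := fun _ => 1) (by intro i; simp) v
  rw [qf_one] at this
  simpa using this

theorem inv_eig (h : Spec B x e) (hB : IsUnit B.det) (i : Fin n) :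
    B⁻¹ *ᵥ e i = (x i)⁻¹ • e i := by
  have h1 : B⁻¹ *ᵥ (B *ᵥ e i) = e i := by
    rw [mulVec_mulVec, nonsing_inv_mul _ hB, one_mulVec]
  rw [h.eig, mulVec_smul] at h1
  rw [← h1, smul_smul, inv_mul_cancel₀ (h.pos i).ne', one_smul, h1]

/-- a matrix with the eigenbasis `e` and positive eigenvalues is invertible, and its inverse -/
theorem inv_of (h : Spec B x e) {M : Matrix (Fin n) (Fin n) ℝ} {f : Fin n → ℝ}
    (hM : ∀ i, M *ᵥ e i = f i • e i) (hf : ∀ i, 0 < f i) (i : Fin n) :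
    M⁻¹ *ᵥ e i = (f i)⁻¹ • e i := by
  have hu : IsUnit M.det := by
    rw [← Matrix.isUnit_iff_isUnit_det, ← Matrix.mulVec_injective_iff_isUnit]
    intro v w hvw
    have h0 : M *ᵥ (v - w) = 0 := by
      rw [mulVec_sub]; exact sub_eq_zero.mpr hvw
    have h1 : qf M (v - w) = 0 := by rw [qf, h0, dotProduct_zero]
    rw [h.quad hM] at h1
    have h2 := (Finset.sum_eq_zero_iff_of_nonneg
      (fun i _ => mul_nonneg (hf i).le (sq_nonneg _))).mp h1
    have h3 : v - w = 0 := by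
      rw [← h.sum_smul (v - w)]
      refine Finset.sum_eq_zero fun i hi => ?_
      have := h2 i hi
      rcases mul_eq_zero.mp this with h | h
      · exact absurd h (hf i).ne'
      · rw [pow_eq_zero_iff (by norm_num)] at h
        rw [h, zero_smul]
    exact sub_eq_zero.mp h3
  have h1 : M⁻¹ *ᵥ (M *ᵥ e i) = e i := by
    rw [mulVec_mulVec, nonsing_inv_mul _ hu, one_mulVec]
  rw [hM, mulVec_smul] at h1
  rw [← h1, smul_smul, inv_mul_cancel₀ (hf i).ne', one_smul, h1]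

theorem res_eig (h : Spec B x e) (hB : IsUnit B.det) {κ μ : ℝ} (hκ : 0 ≤ κ) (hμ : 0 ≤ μ)
    (hκμ : 0 < κ + μ) (i : Fin n) :
    (κ • (1 : Matrix (Fin n) (Fin n) ℝ) + μ • B⁻¹)⁻¹ *ᵥ e i = (κ + μ / x i)⁻¹ • e i := by
  refine h.inv_of (f := fun i => κ + μ / x i) ?_ ?_ i
  · intro i
    rw [add_mulVec, smul_mulVec, smul_mulVec, one_mulVec, h.inv_eig hB, smul_smul, ← add_smul,
      div_eq_mul_inv]
  · intro i
    have hx := h.pos i
    rcases hκ.lt_or_eq with h1 | h1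
    · have : 0 ≤ μ / x i := by positivity
      linarith
    · have : 0 < μ / x i := by
        apply div_pos _ hx
        linarith
      linarith

theorem posDef_of (h : Spec B x e) {M : Matrix (Fin n) (Fin n) ℝ} {f : Fin n → ℝ}
    (hs : M.IsHermitian) (hM : ∀ i, M *ᵥ e i = f i • e i) (hf : ∀ i, 0 < f i) : M.PosDef := by
  rw [posDef_iff_qf]
  refine ⟨hs, fun v hv => ?_⟩
  rw [h.quad hM]
  have h1 : 0 < v ⬝ᵥ v := by simpa using dotProduct_star_self_pos_iff.mpr hv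
  rw [h.dot_self] at h1
  obtain ⟨i, hi, h2⟩ := Finset.exists_lt_of_sum_lt (f := fun _ => (0:ℝ)) (by simpa using h1)
  refine Finset.sum_pos' (fun i _ => mul_nonneg (hf i).le (sq_nonneg _)) ⟨i, hi, ?_⟩
  exact mul_pos (hf i) h2

end Spec

end Vale.Agent.P092.H601
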